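import Mathlib
import Vale.Agent.Lib.P248.helper25.ABDefs

open Vale.Agent.Lib.P248.H25 MeasureTheory
open scoped ENNReal

namespace Vale.Agent.Lib.P248.H85

theorem cone_subset {n : ℕ} {A : Set (Fin (n + 1) → ℝ)} (hc : Convex ℝ A)
    {x : Fin (n + 1) → ℝ} (hx : x ∈ A) (i : Fin (n + 1)) : cone A x i ⊆ A := by
  intro p hp
  obtain ⟨hp0, hpx, _, hb⟩ := hp
  have hxi : 0 < x i := lt_trans hp0 hpx
  have hd : 0 < x i - p i := sub_pos.mpr hpx
  have ht0 : 0 ≤ p i / x i := div_nonneg hp0.le hxi.le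
  have ht1 : p i / x i ≤ 1 := by rw [div_le_one hxi]; exact hpx.le
  have hcomb := hc hb hx (sub_nonneg.mpr ht1) ht0 (by ring)
  have hpe : p = (1 - p i / x i) • ((x i - p i)⁻¹ • (x i • p - p i • x)) + (p i / x i) • x := by
    funext j
    simp only [Pi.add_apply, Pi.smul_apply, Pi.sub_apply, smul_eq_mul]
    have h1 : x i ≠ 0 := hxi.ne'
    have h2 : x i - p i ≠ 0 := hd.ne'
    field_simp
    ring
  rw [hpe]
  exact hcomb

theorem cone_disjoint {n : ℕ} (A : Set (Fin (n + 1) → ℝ)) (x : Fin (n + 1) → ℝ)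
    {i k : Fin (n + 1)} (hik : i ≠ k) : Disjoint (cone A x i) (cone A x k) := by
  rw [Set.disjoint_left]
  intro p hpi hpk
  have h1 := hpi.2.2.1 k (Ne.symm hik)
  have h2 := hpk.2.2.1 i hik
  linarith

theorem cone_measurable {n : ℕ} {A : Set (Fin (n + 1) → ℝ)} (hA : IsClosed A)
    (x : Fin (n + 1) → ℝ) (i : Fin (n + 1)) : MeasurableSet (cone A x i) := by
  have h1 : MeasurableSet {p : Fin (n + 1) → ℝ | 0 < p i} :=
    measurableSet_lt measurable_const (measurable_pi_apply i)
  have h2 : MeasurableSet {p : Fin (n + 1) → ℝ | p i < x i} :=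
    measurableSet_lt (measurable_pi_apply i) measurable_const
  have hm : ∀ j, Measurable fun p : Fin (n + 1) → ℝ => x i * p j - p i * x j := by
    intro j
    fun_prop
  have h3 : MeasurableSet {p : Fin (n + 1) → ℝ | ∀ j, j ≠ i → 0 < x i * p j - p i * x j} := by
    have hset : {p : Fin (n + 1) → ℝ | ∀ j, j ≠ i → 0 < x i * p j - p i * x j}
        = ⋂ j, {p : Fin (n + 1) → ℝ | j ≠ i → 0 < x i * p j - p i * x j} := by
      ext p
      constructor
      · intro h
        exact Set.mem_iInter.mpr fun j => h j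
      · intro h j
        exact Set.mem_iInter.mp h j
    rw [hset]
    refine MeasurableSet.iInter fun j => ?_
    by_cases hj : j = i
    · have hu : {p : Fin (n + 1) → ℝ | j ≠ i → 0 < x i * p j - p i * x j} = Set.univ := by
        ext p
        simp [hj]
      rw [hu]
      exact MeasurableSet.univ
    · have hu : {p : Fin (n + 1) → ℝ | j ≠ i → 0 < x i * p j - p i * x j}
          = {p : Fin (n + 1) → ℝ | 0 < x i * p j - p i * x j} := by
        ext p
        simp [hj]
      rw [hu]
      exact measurableSet_lt measurable_const (hm j)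
  have hf : Measurable fun p : Fin (n + 1) → ℝ => (x i - p i)⁻¹ • (x i • p - p i • x) := by
    rw [measurable_pi_iff]
    intro j
    simp only [Pi.smul_apply, Pi.sub_apply, smul_eq_mul]
    have hinv : Measurable fun p : Fin (n + 1) → ℝ => (x i - p i)⁻¹ := by fun_prop
    exact hinv.mul (hm j)
  have h4 : MeasurableSet {p : Fin (n + 1) → ℝ | (x i - p i)⁻¹ • (x i • p - p i • x) ∈ A} :=
    hf hA.measurableSet
  have hcone : cone A x i = {p : Fin (n + 1) → ℝ | 0 < p i} ∩ ({p | p i < x i} ∩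
      ({p | ∀ j, j ≠ i → 0 < x i * p j - p i * x j} ∩
        {p | (x i - p i)⁻¹ • (x i • p - p i • x) ∈ A})) := by
    ext p
    constructor
    · intro h
      exact ⟨h.1, h.2.1, h.2.2.1, h.2.2.2⟩
    · intro h
      exact ⟨h.1, h.2.1, h.2.2.1, h.2.2.2⟩
  rw [hcone]
  exact h1.inter (h2.inter (h3.inter h4))

end Vale.Agent.Lib.P248.H85
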