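import Mathlib
import Vale.Agent.Lib.P248.helper37.Q2Defs

/-!
P248 pool job Q2AB-J1 (helper85, third copy): the cone inequality for a compact convex subset
of the closed positive orthant (no down-closedness is assumed).

For each coordinate `i` with `0 < y i` the cone with apex `y` over the section of `M` by the
hyperplane `p i = 0` lies in `M`, has volume at least `y i / (n + 1)` times the volume of the
section, and two such cones meet in a null set.
-/

open MeasureTheory Set

namespace Vale.Agent.Lib.P248.H85Q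

open Vale.Agent.Lib.P248.H37 Vale.Agent.Lib.P248.H37Q

/-- The integral of the profile of a cone of height `h`. -/
theorem lintegral_cone_profile (n : ℕ) (h : ℝ) (hh : 0 < h) :
    ∫⁻ t in Ico (0:ℝ) h, ENNReal.ofReal ((1 - t / h) ^ n) = ENNReal.ofReal (h / (n + 1)) := by
  have hcont : Continuous (fun t : ℝ => (1 - t / h) ^ n) := by fun_prop
  have hint : IntegrableOn (fun t : ℝ => (1 - t / h) ^ n) (Ico (0:ℝ) h) :=
    (hcont.integrableOn_Icc).mono_set Ico_subset_Icc_self
  have hnn : 0 ≤ᵐ[volume.restrict (Ico (0:ℝ) h)] (fun t : ℝ => (1 - t / h) ^ n) := by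
    refine (ae_restrict_iff' measurableSet_Ico).mpr (Filter.Eventually.of_forall fun t ht => ?_)
    have h1 : t / h ≤ 1 := (div_le_one hh).mpr ht.2.le
    exact pow_nonneg (by linarith) n
  rw [← ofReal_integral_eq_lintegral_ofReal hint hnn]
  congr 1
  rw [integral_Ico_eq_integral_Ioc, ← intervalIntegral.integral_of_le hh.le]
  have hderiv : ∀ x ∈ uIcc (0:ℝ) h,
      HasDerivAt (fun t : ℝ => -(h / (n + 1)) * (1 - t / h) ^ (n + 1)) ((1 - x / h) ^ n) x := by
    intro x _
    have h1 : HasDerivAt (fun t : ℝ => 1 - t / h) (-(1 / h)) x := by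
      have h0 := ((hasDerivAt_id x).div_const h).const_sub 1
      simpa using h0
    have h2 : HasDerivAt (fun t : ℝ => -(h / (n + 1)) * (1 - t / h) ^ (n + 1))
        (-(h / (n + 1)) * (((n + 1 : ℕ) : ℝ) * (1 - x / h) ^ (n + 1 - 1) * -(1 / h))) x :=
      (h1.pow (n + 1)).const_mul (-(h / (n + 1)))
    refine h2.congr_deriv ?_
    have hn : (n : ℝ) + 1 ≠ 0 := by positivity
    rw [Nat.add_sub_cancel]
    push_cast
    field_simp
  rw [intervalIntegral.integral_eq_sub_of_hasDerivAt hderiv (hcont.intervalIntegrable _ _)]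
  have h0 : (1 - h / h) = 0 := by rw [div_self hh.ne', sub_self]
  rw [h0]
  simp

/-- The cone map with apex `y` over the coordinate hyperplane `p i = 0`. -/
def coneMap {n : ℕ} (y : Fin (n + 1) → ℝ) (i : Fin (n + 1)) (q : ℝ × (Fin n → ℝ)) :
    Fin (n + 1) → ℝ :=
  (1 - q.1) • y + q.1 • (Fin.insertNth i (0 : ℝ) q.2 : Fin (n + 1) → ℝ)

theorem coneMap_same {n : ℕ} (y : Fin (n + 1) → ℝ) (i : Fin (n + 1)) (t : ℝ) (w : Fin n → ℝ) :
    coneMap y i (t, w) i = (1 - t) * y i := by
  simp [coneMap]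

theorem coneMap_succ {n : ℕ} (y : Fin (n + 1) → ℝ) (i : Fin (n + 1)) (t : ℝ) (w : Fin n → ℝ)
    (k : Fin n) :
    coneMap y i (t, w) (i.succAbove k) = (1 - t) * y (i.succAbove k) + t * w k := by
  simp [coneMap]

theorem continuous_coneMap {n : ℕ} (y : Fin (n + 1) → ℝ) (i : Fin (n + 1)) :
    Continuous (coneMap y i) := by
  unfold coneMap
  have h1 : Continuous
      (fun q : ℝ × (Fin n → ℝ) => (Fin.insertNth i (0 : ℝ) q.2 : Fin (n + 1) → ℝ)) :=
    (continuous_ins i).comp continuous_snd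
  exact ((continuous_const.sub continuous_fst).smul continuous_const).add
    (continuous_fst.smul h1)

/-- The cone with apex `y` over the section of `M` by the hyperplane `p i = 0`. -/
def coneSet {n : ℕ} (M : Set (Fin (n + 1) → ℝ)) (y : Fin (n + 1) → ℝ) (i : Fin (n + 1)) :
    Set (Fin (n + 1) → ℝ) :=
  coneMap y i '' (Icc (0:ℝ) 1 ×ˢ sec M i)

theorem isCompact_sec {n : ℕ} {M : Set (Fin (n + 1) → ℝ)} (hcomp : IsCompact M)
    (i : Fin (n + 1)) : IsCompact (sec M i) := by
  have e : sec M i = (fun p : Fin (n + 1) → ℝ => fun j : Fin n => p (i.succAbove j)) ''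
      (M ∩ {p | p i = 0}) := by
    ext z
    constructor
    · intro hz
      refine ⟨Fin.insertNth i (0:ℝ) z, ⟨hz, ins_same i 0 z⟩, ?_⟩
      funext j
      exact ins_succ i 0 z j
    · rintro ⟨p, ⟨hp, hp0⟩, rfl⟩
      show (Fin.insertNth i (0:ℝ) (fun j : Fin n => p (i.succAbove j)) : Fin (n + 1) → ℝ) ∈ M
      have hp0' : p i = 0 := hp0
      have hpe : (Fin.insertNth i (0:ℝ) (fun j : Fin n => p (i.succAbove j)) :
          Fin (n + 1) → ℝ) = p := by
        funext k
        rcases eq_or_ne k i with hk | hk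
        · rw [hk, ins_same, hp0']
        · obtain ⟨j, rfl⟩ := Fin.exists_succAbove_eq hk
          rw [ins_succ]
      rw [hpe]
      exact hp
  rw [e]
  refine IsCompact.image
    (hcomp.inter_right (isClosed_eq (continuous_apply i) continuous_const)) ?_
  exact continuous_pi (fun j => continuous_apply (i.succAbove j))

theorem isCompact_coneSet {n : ℕ} {M : Set (Fin (n + 1) → ℝ)} (hcomp : IsCompact M)
    (y : Fin (n + 1) → ℝ) (i : Fin (n + 1)) : IsCompact (coneSet M y i) :=
  (isCompact_Icc.prod (isCompact_sec hcomp i)).image (continuous_coneMap y i)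

theorem coneSet_subset {n : ℕ} {M : Set (Fin (n + 1) → ℝ)} (hconv : Convex ℝ M)
    {y : Fin (n + 1) → ℝ} (hy : y ∈ M) (i : Fin (n + 1)) : coneSet M y i ⊆ M := by
  rintro _ ⟨⟨t, w⟩, ⟨ht, hw⟩, rfl⟩
  have ht0 : (0:ℝ) ≤ t := ht.1
  have ht1 : t ≤ 1 := ht.2
  have hw' : (Fin.insertNth i (0:ℝ) w : Fin (n + 1) → ℝ) ∈ M := hw
  exact hconv hy hw' (by linarith) ht0 (by ring)

theorem coneSet_le {n : ℕ} {M : Set (Fin (n + 1) → ℝ)} (hnn : ∀ p ∈ M, ∀ i, 0 ≤ p i)
    {y : Fin (n + 1) → ℝ} (hy : y ∈ M) {i j : Fin (n + 1)} (hij : i ≠ j)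
    {p : Fin (n + 1) → ℝ} (hp : p ∈ coneSet M y i) : p i * y j ≤ p j * y i := by
  obtain ⟨⟨t, w⟩, ⟨ht, hw⟩, rfl⟩ := hp
  obtain ⟨k, rfl⟩ := Fin.exists_succAbove_eq hij.symm
  rw [coneMap_same, coneMap_succ]
  have ht0 : (0:ℝ) ≤ t := ht.1
  have hw' : (Fin.insertNth i (0:ℝ) w : Fin (n + 1) → ℝ) ∈ M := hw
  have hwk : 0 ≤ w k := by
    have h := hnn _ hw' (i.succAbove k)
    rwa [ins_succ] at h
  have h1 : 0 ≤ y i := hnn y hy i
  have h2 : 0 ≤ t * w k * y i := mul_nonneg (mul_nonneg ht0 hwk) h1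
  nlinarith [h2]

theorem volume_tie_eq_zero {n : ℕ} (y : Fin (n + 1) → ℝ) {i j : Fin (n + 1)} (hij : i ≠ j)
    (hyj : y j ≠ 0) : volume {p : Fin (n + 1) → ℝ | p i * y j = p j * y i} = 0 := by
  let L : (Fin (n + 1) → ℝ) →ₗ[ℝ] ℝ :=
    y j • (LinearMap.proj i : (Fin (n + 1) → ℝ) →ₗ[ℝ] ℝ)
      - y i • (LinearMap.proj j : (Fin (n + 1) → ℝ) →ₗ[ℝ] ℝ)
  have hL : ∀ p : Fin (n + 1) → ℝ, L p = y j * p i - y i * p j := fun p => rfl
  have hS : LinearMap.ker L ≠ ⊤ := by
    intro htop
    have hmem : (Pi.single i (1:ℝ) : Fin (n + 1) → ℝ) ∈ LinearMap.ker L := by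
      rw [htop]; trivial
    rw [LinearMap.mem_ker, hL, Pi.single_eq_same, Pi.single_eq_of_ne hij.symm] at hmem
    apply hyj
    linarith
  have h0 := Measure.addHaar_submodule (volume : Measure (Fin (n + 1) → ℝ)) (LinearMap.ker L) hS
  refine measure_mono_null ?_ h0
  intro p hp
  have hp' : p i * y j = p j * y i := hp
  show p ∈ LinearMap.ker L
  rw [LinearMap.mem_ker, hL]
  linarith

theorem esymm_apply {n : ℕ} (i : Fin (n + 1)) (s : ℝ) (w : Fin n → ℝ) :
    (MeasurableEquiv.piFinSuccAbove (fun _ : Fin (n + 1) => ℝ) i).symm (s, w)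
      = (Fin.insertNth i s w : Fin (n + 1) → ℝ) := rfl

theorem volume_coneSet_ge {n : ℕ} {M : Set (Fin (n + 1) → ℝ)} (hcomp : IsCompact M)
    (y : Fin (n + 1) → ℝ) (i : Fin (n + 1)) (hyi : 0 < y i) :
    ENNReal.ofReal (y i / (n + 1)) * volume (sec M i) ≤ volume (coneSet M y i) := by
  have hmeas : MeasurableSet (coneSet M y i) :=
    (isCompact_coneSet hcomp y i).isClosed.measurableSet
  have hmp : MeasurePreserving
      (MeasurableEquiv.piFinSuccAbove (fun _ : Fin (n + 1) => ℝ) i).symm :=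
    MeasurePreserving.symm _ (volume_preserving_piFinSuccAbove (fun _ : Fin (n + 1) => ℝ) i)
  have hvol : volume ((MeasurableEquiv.piFinSuccAbove (fun _ : Fin (n + 1) => ℝ) i).symm ⁻¹'
      coneSet M y i) = volume (coneSet M y i) := hmp.measure_preimage_equiv _
  rw [← hvol, Measure.volume_eq_prod,
    Measure.prod_apply ((MeasurableEquiv.piFinSuccAbove (fun _ : Fin (n + 1) => ℝ) i).symm.measurable
      hmeas)]
  have hmf : Measurable (fun s : ℝ => ENNReal.ofReal ((1 - s / y i) ^ n)) := by fun_prop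
  have hslice : ∀ s ∈ Ico (0:ℝ) (y i),
      ENNReal.ofReal ((1 - s / y i) ^ n) * volume (sec M i) ≤
        volume (Prod.mk s ⁻¹' ((MeasurableEquiv.piFinSuccAbove (fun _ : Fin (n + 1) => ℝ) i).symm ⁻¹'
          coneSet M y i)) := by
    intro s hs
    have hr0 : 0 ≤ s / y i := div_nonneg hs.1 hyi.le
    have hr1 : s / y i < 1 := (div_lt_one hyi).mpr hs.2
    have hsub : AffineMap.homothety (fun j : Fin n => y (i.succAbove j)) (1 - s / y i) '' sec M i
        ⊆ Prod.mk s ⁻¹' ((MeasurableEquiv.piFinSuccAbove (fun _ : Fin (n + 1) => ℝ) i).symm ⁻¹'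
          coneSet M y i) := by
      rintro _ ⟨w0, hw0, rfl⟩
      show (MeasurableEquiv.piFinSuccAbove (fun _ : Fin (n + 1) => ℝ) i).symm
        (s, AffineMap.homothety (fun j : Fin n => y (i.succAbove j)) (1 - s / y i) w0)
          ∈ coneSet M y i
      rw [esymm_apply]
      refine ⟨(1 - s / y i, w0), ⟨⟨by linarith, by linarith⟩, hw0⟩, ?_⟩
      funext k
      rcases eq_or_ne k i with hk | hk
      · rw [hk, coneMap_same, ins_same]
        field_simp
        ring
      · obtain ⟨j, rfl⟩ := Fin.exists_succAbove_eq hk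
        rw [coneMap_succ, ins_succ]
        simp only [AffineMap.homothety_apply, vsub_eq_sub, vadd_eq_add, Pi.add_apply,
          Pi.smul_apply, Pi.sub_apply, smul_eq_mul]
        ring
    calc ENNReal.ofReal ((1 - s / y i) ^ n) * volume (sec M i)
        = volume (AffineMap.homothety (fun j : Fin n => y (i.succAbove j)) (1 - s / y i) ''
            sec M i) := by
          rw [Measure.addHaar_image_homothety, Module.finrank_fin_fun,
            abs_of_nonneg (pow_nonneg (by linarith) n)]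
      _ ≤ _ := measure_mono hsub
  calc ENNReal.ofReal (y i / (n + 1)) * volume (sec M i)
      = (∫⁻ s in Ico (0:ℝ) (y i), ENNReal.ofReal ((1 - s / y i) ^ n)) * volume (sec M i) := by
        rw [lintegral_cone_profile n (y i) hyi]
    _ = ∫⁻ s in Ico (0:ℝ) (y i), ENNReal.ofReal ((1 - s / y i) ^ n) * volume (sec M i) := by
        rw [lintegral_mul_const _ hmf]
    _ ≤ ∫⁻ s in Ico (0:ℝ) (y i),
          volume (Prod.mk s ⁻¹' ((MeasurableEquiv.piFinSuccAbove (fun _ : Fin (n + 1) => ℝ) i).symm ⁻¹'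
            coneSet M y i)) :=
        setLIntegral_mono' measurableSet_Ico hslice
    _ ≤ ∫⁻ s, volume (Prod.mk s ⁻¹' ((MeasurableEquiv.piFinSuccAbove (fun _ : Fin (n + 1) => ℝ) i).symm ⁻¹'
            coneSet M y i)) := setLIntegral_le_lintegral _ _

/-- The cone inequality for a compact convex subset of the closed positive orthant. -/
theorem cone_ineq_convex (n : ℕ) (M : Set (Fin (n + 1) → ℝ)) (hcomp : IsCompact M)
    (hconv : Convex ℝ M) (hnn : ∀ p ∈ M, ∀ i, 0 ≤ p i) (y : Fin (n + 1) → ℝ) (hy : y ∈ M) :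
    ∑ i, ENNReal.ofReal (y i) * volume (sec M i) ≤ ((n : ENNReal) + 1) * volume M := by
  classical
  set I : Finset (Fin (n + 1)) := Finset.univ.filter (fun i => 0 < y i) with hI
  have hdisj : (I : Set (Fin (n + 1))).Pairwise
      (Function.onFun (AEDisjoint volume) fun i => coneSet M y i) := by
    intro i hi j hj hij
    have hyj : 0 < y j := (Finset.mem_filter.1 (Finset.mem_coe.1 hj)).2
    show volume (coneSet M y i ∩ coneSet M y j) = 0
    refine measure_mono_null ?_ (volume_tie_eq_zero y hij hyj.ne')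
    rintro p ⟨hpi, hpj⟩
    have h1 := coneSet_le hnn hy hij hpi
    have h2 := coneSet_le hnn hy hij.symm hpj
    exact le_antisymm h1 h2
  have hunion : volume (⋃ i ∈ I, coneSet M y i) = ∑ i ∈ I, volume (coneSet M y i) :=
    measure_biUnion_finset₀ hdisj (fun i _ =>
      (isCompact_coneSet hcomp y i).isClosed.measurableSet.nullMeasurableSet)
  have hsub : (⋃ i ∈ I, coneSet M y i) ⊆ M :=
    iUnion₂_subset (fun i _ => coneSet_subset hconv hy i)
  have hcast : ((n : ENNReal) + 1) = ENNReal.ofReal ((n : ℝ) + 1) := by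
    rw [ENNReal.ofReal_add (by positivity) (by norm_num), ENNReal.ofReal_natCast,
      ENNReal.ofReal_one]
  calc ∑ i, ENNReal.ofReal (y i) * volume (sec M i)
      = ∑ i ∈ I, ENNReal.ofReal (y i) * volume (sec M i) := by
        symm
        apply Finset.sum_subset (Finset.subset_univ _)
        intro i _ hi
        have hnot : ¬ 0 < y i := fun h => hi (Finset.mem_filter.2 ⟨Finset.mem_univ _, h⟩)
        rw [ENNReal.ofReal_of_nonpos (not_lt.1 hnot), zero_mul]
    _ ≤ ∑ i ∈ I, ((n : ENNReal) + 1) * volume (coneSet M y i) := by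
        apply Finset.sum_le_sum
        intro i hi
        have hyi : 0 < y i := (Finset.mem_filter.1 hi).2
        have h := volume_coneSet_ge hcomp y i hyi
        have e : ENNReal.ofReal (y i) = ((n : ENNReal) + 1) * ENNReal.ofReal (y i / (n + 1)) := by
          rw [hcast, ← ENNReal.ofReal_mul (by positivity)]
          congr 1
          field_simp
        rw [e, mul_assoc]
        gcongr
    _ = ((n : ENNReal) + 1) * volume (⋃ i ∈ I, coneSet M y i) := by
        rw [hunion, Finset.mul_sum]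
    _ ≤ ((n : ENNReal) + 1) * volume M := by
        gcongr

end Vale.Agent.Lib.P248.H85Q
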