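import Mathlib
import Vale.Agent.Lib.P248.helper1.ConeDefs

/-!
P248, pool piece SPC (second copy): for a symmetric measurable set `T` on which `|⟪z, y⟫| < 1`,
the volume of `T` is at most the integral over `T` of `(1 - ⟪z, y⟫)^(-(m+1))`.
-/

namespace Vale.Agent.Lib.P248.H85Y

open MeasureTheory Set
open scoped ENNReal
open Vale.Agent.Lib.P248.H1

/-- For `|t| < 1`: `(1 - t)^(-k) + (1 + t)^(-k) ≥ 2`. -/
theorem two_le_inv_pow_add (t : ℝ) (ht : |t| < 1) (k : ℕ) :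
    2 ≤ (1 - t)⁻¹ ^ k + (1 + t)⁻¹ ^ k := by
  have h1 : 0 < 1 - t := by linarith [(abs_lt.mp ht).2]
  have h2 : 0 < 1 + t := by linarith [(abs_lt.mp ht).1]
  have ha : 1 + t ≤ (1 - t)⁻¹ := by
    rw [le_inv_comm₀ h2 h1, inv_eq_one_div, le_div_iff₀ h2]
    nlinarith [sq_nonneg t]
  have hb : 1 + -t ≤ (1 + t)⁻¹ := by
    have h1' : 0 < 1 + -t := by linarith
    rw [le_inv_comm₀ h1' h2, inv_eq_one_div, le_div_iff₀ h1']
    nlinarith [sq_nonneg t]
  have ha' : 1 + (k : ℝ) * t ≤ (1 - t)⁻¹ ^ k :=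
    le_trans (one_add_mul_le_pow (by linarith) k) (pow_le_pow_left₀ h2.le ha k)
  have hb' : 1 + (k : ℝ) * -t ≤ (1 + t)⁻¹ ^ k :=
    le_trans (one_add_mul_le_pow (by linarith) k) (pow_le_pow_left₀ (by linarith) hb k)
  linarith

theorem volume_le_lintegral_symm {m : ℕ} (z : EuclideanSpace ℝ (Fin m))
    (T : Set (EuclideanSpace ℝ (Fin m))) (hT : MeasurableSet T) (hTs : ∀ y ∈ T, -y ∈ T)
    (habs : ∀ y ∈ T, |inner ℝ z y| < 1) :
    volume T ≤ ∫⁻ y in T, ENNReal.ofReal ((1 - inner ℝ z y)⁻¹ ^ (m + 1)) := by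
  have hgm : Measurable (fun y : EuclideanSpace ℝ (Fin m) =>
      ENNReal.ofReal ((1 - inner ℝ z y)⁻¹ ^ (m + 1))) := by
    fun_prop
  have hpre : (Neg.neg ⁻¹' T : Set (EuclideanSpace ℝ (Fin m))) = T := by
    ext y
    constructor
    · intro hy
      have h := hTs (-y) hy
      rwa [neg_neg] at h
    · intro hy
      exact hTs y hy
  have hneg : ∫⁻ y in T, ENNReal.ofReal ((1 - inner ℝ z (-y))⁻¹ ^ (m + 1))
      = ∫⁻ y in T, ENNReal.ofReal ((1 - inner ℝ z y)⁻¹ ^ (m + 1)) := by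
    have h := (Measure.measurePreserving_neg
      (volume : Measure (EuclideanSpace ℝ (Fin m)))).setLIntegral_comp_preimage hT hgm
    rw [hpre] at h
    exact h
  have hsum : ∫⁻ y in T, (ENNReal.ofReal ((1 - inner ℝ z y)⁻¹ ^ (m + 1))
        + ENNReal.ofReal ((1 - inner ℝ z (-y))⁻¹ ^ (m + 1)))
      = 2 * ∫⁻ y in T, ENNReal.ofReal ((1 - inner ℝ z y)⁻¹ ^ (m + 1)) := by
    rw [lintegral_add_left hgm, hneg, two_mul]
  have hpt : ∀ y ∈ T, (2 : ℝ≥0∞) ≤ ENNReal.ofReal ((1 - inner ℝ z y)⁻¹ ^ (m + 1))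
        + ENNReal.ofReal ((1 - inner ℝ z (-y))⁻¹ ^ (m + 1)) := by
    intro y hy
    have ht := habs y hy
    have h1 : 0 < 1 - inner ℝ z y := by linarith [(abs_lt.mp ht).2]
    have h2 : 0 < 1 + inner ℝ z y := by linarith [(abs_lt.mp ht).1]
    have e : (1 - inner ℝ z (-y)) = 1 + inner ℝ z y := by
      rw [inner_neg_right]
      ring
    rw [e, ← ENNReal.ofReal_add (by positivity) (by positivity)]
    have h := two_le_inv_pow_add (inner ℝ z y) ht (m + 1)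
    calc (2 : ℝ≥0∞) = ENNReal.ofReal 2 := by norm_num
      _ ≤ _ := ENNReal.ofReal_le_ofReal h
  have hle : 2 * volume T ≤ 2 * ∫⁻ y in T, ENNReal.ofReal ((1 - inner ℝ z y)⁻¹ ^ (m + 1)) := by
    rw [← hsum]
    calc 2 * volume T = ∫⁻ _ in T, (2 : ℝ≥0∞) := by
          rw [setLIntegral_const]
      _ ≤ _ := setLIntegral_mono' hT hpt
  exact (ENNReal.mul_le_mul_iff_right (by norm_num) (by norm_num)).mp hle

end Vale.Agent.Lib.P248.H85Y
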