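import Mathlib

/-!
P248, pool piece CQE (second copy): the elementary inequality
`(n+2)^(n+2) * τ * (1-τ)^(n+1) ≤ (n+1)^(n+1)` on `[0,1]`.
-/

namespace Vale.Agent.Lib.P248.H85

/-- `(m+1) x^m ≤ 1 + m x^(m+1)` for `x ≥ 0`. -/
theorem tau_amgm_aux (m : ℕ) (x : ℝ) (hx : 0 ≤ x) :
    ((m : ℝ) + 1) * x ^ m ≤ 1 + (m : ℝ) * x ^ (m + 1) := by
  induction m with
  | zero => norm_num
  | succ k ih =>
    have h1 : 0 ≤ (1 - x) * (1 - x ^ (k + 1)) := by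
      rcases le_total x 1 with h | h
      · have hp : x ^ (k + 1) ≤ 1 := pow_le_one₀ hx h
        exact mul_nonneg (by linarith) (by linarith)
      · have hp : 1 ≤ x ^ (k + 1) := one_le_pow₀ h
        exact mul_nonneg_of_nonpos_of_nonpos (by linarith) (by linarith)
    have h2 : 0 ≤ x * (1 + (k : ℝ) * x ^ (k + 1) - ((k : ℝ) + 1) * x ^ k) :=
      mul_nonneg hx (by linarith)
    have hid : 1 + ((k : ℝ) + 1) * x ^ (k + 1 + 1) - ((k : ℝ) + 1 + 1) * x ^ (k + 1)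
        = x * (1 + (k : ℝ) * x ^ (k + 1) - ((k : ℝ) + 1) * x ^ k)
          + (1 - x) * (1 - x ^ (k + 1)) := by
      ring
    push_cast
    linarith

theorem tau_amgm_step (m : ℕ) (M x τ : ℝ) (hMx : M * x = (M + 1) * (1 - τ))
    (key : (M + 1) * x ^ m ≤ 1 + M * x ^ (m + 1)) : x ^ m * ((M + 1) * τ) ≤ 1 := by
  have e : M * x ^ (m + 1) = x ^ m * ((M + 1) * (1 - τ)) := by
    rw [← hMx, pow_succ]
    ring
  rw [e] at key
  have e2 : x ^ m * ((M + 1) * τ) = (M + 1) * x ^ m - x ^ m * ((M + 1) * (1 - τ)) := by ring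
  linarith

theorem tau_amgm (n : ℕ) (τ : ℝ) (h0 : 0 ≤ τ) (h1 : τ ≤ 1) :
    (n + 2 : ℝ) ^ (n + 2) * (τ * (1 - τ) ^ (n + 1)) ≤ (n + 1 : ℝ) ^ (n + 1) := by
  have _h0 := h0
  have hM : (0 : ℝ) < (n : ℝ) + 1 := by positivity
  have hx0 : 0 ≤ ((n : ℝ) + 2) * (1 - τ) / ((n : ℝ) + 1) :=
    div_nonneg (mul_nonneg (by positivity) (sub_nonneg.mpr h1)) hM.le
  have key := tau_amgm_aux (n + 1) (((n : ℝ) + 2) * (1 - τ) / ((n : ℝ) + 1)) hx0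
  push_cast at key
  have hMx : ((n : ℝ) + 1) * (((n : ℝ) + 2) * (1 - τ) / ((n : ℝ) + 1))
      = ((n : ℝ) + 1 + 1) * (1 - τ) := by
    field_simp
    ring
  have h3 := tau_amgm_step (n + 1) ((n : ℝ) + 1) (((n : ℝ) + 2) * (1 - τ) / ((n : ℝ) + 1)) τ
    hMx key
  have hxpow : (((n : ℝ) + 2) * (1 - τ) / ((n : ℝ) + 1)) ^ (n + 1)
      = ((n : ℝ) + 2) ^ (n + 1) * (1 - τ) ^ (n + 1) / ((n : ℝ) + 1) ^ (n + 1) := by
    rw [div_pow, mul_pow]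
  rw [hxpow] at h3
  have hpos : (0 : ℝ) < ((n : ℝ) + 1) ^ (n + 1) := by positivity
  rw [div_mul_eq_mul_div, div_le_one hpos] at h3
  calc (n + 2 : ℝ) ^ (n + 2) * (τ * (1 - τ) ^ (n + 1))
      = ((n : ℝ) + 2) ^ (n + 1) * (1 - τ) ^ (n + 1) * (((n : ℝ) + 1 + 1) * τ) := by ring
    _ ≤ (n + 1 : ℝ) ^ (n + 1) := h3

end Vale.Agent.Lib.P248.H85
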